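import Mathlib
import Vale.Agent.P243.Coplanar

namespace Vale.Agent.Results.P243.CoplanarAxes

open Vale.Agent.P243

/-- Bang's half-area inequality for coverings by cylinders with axes parallel to one plane. -/
theorem result (K : Set R3) (hK : IsConvexBody K) (C : Covering K) (hC : C.Coplanar) :
    minShadow K ≤ 2 * C.area := by
  obtain ⟨ν, hν, hperp⟩ := hC
  exact half_area_coplanar hK.1 hK.2.1 hK.2.2 C.axis C.base C.unit hν hperp C.covers

end Vale.Agent.Results.P243.CoplanarAxes
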