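import Mathlib
import Vale.Agent.P243.Main

namespace Vale.Agent.Results.P243.OneThirdImproved

open MeasureTheory
open scoped ENNReal

section General

variable {V : Type} [NormedAddCommGroup V] [InnerProductSpace ℝ V]

/-- The hyperplane through the origin orthogonal to `u`. -/
noncomputable def perpOf (u : V) : Submodule ℝ V := (ℝ ∙ u)ᗮ

variable [FiniteDimensional ℝ V]

/-- Orthogonal projection onto `perpOf u`. -/
noncomputable def projOf (u x : V) : perpOf u := (ℝ ∙ u)ᗮ.orthogonalProjectionOnto x

variable [MeasurableSpace V] [BorelSpace V]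

/-- Lebesgue (outer) measure in `perpOf u`. -/
noncomputable def areaOf (u : V) (B : Set (perpOf u)) : ℝ≥0∞ := volume B

end General

/-- Euclidean three-space. -/
abbrev Space := EuclideanSpace ℝ (Fin 3)

/-- The plane through the origin orthogonal to `u`, as a type. -/
def Plane (u : Space) : Type := ↥(perpOf u)

/-- Orthogonal projection along `u`. -/
noncomputable def proj (u x : Space) : Plane u := projOf u x

/-- Planar Lebesgue (outer) measure. -/
noncomputable def area (u : Space) (B : Set (Plane u)) : ℝ≥0∞ := areaOf u B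

/-- The cylinder with base `B` and axis `u`. -/
def cylinder (u : Space) (B : Set (Plane u)) : Set Space := {x | proj u x ∈ B}

/-- Area of the orthogonal projection of `K` along `u`. -/
noncomputable def shadow (u : Space) (K : Set Space) : ℝ≥0∞ := area u (proj u '' K)

/-- Infimum of the projection areas over all unit directions. -/
noncomputable def minShadow (K : Set Space) : ℝ≥0∞ :=
  ⨅ v : {v : Space // ‖v‖ = 1}, shadow v K

theorem result :
    ∀ K : Set Space, Convex ℝ K → IsCompact K → (interior K).Nonempty →
    ∀ (m : ℕ) (u : Fin m → Space) (B : ∀ i, Set (Plane (u i))),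
      (∀ i, ‖u i‖ = 1) → K ⊆ ⋃ i, cylinder (u i) (B i) →
      ENNReal.ofReal (1/3 + 1/10^40) ≤ ∑ i, area (u i) (B i) / shadow (u i) K ∧
      ENNReal.ofReal (1/3 + 1/10^40) * minShadow K ≤ ∑ i, area (u i) (B i) := by
  intro K hc hK hi m u B hu hcov
  have h : ENNReal.ofReal (1/3 + 1/10^40) ≤ ∑ i, area (u i) (B i) / shadow (u i) K :=
    Vale.Agent.P243.cylinder_bound K hc hK hi u B hu hcov
  refine ⟨h, ?_⟩
  refine (mul_le_mul_left h _).trans ?_
  rw [Finset.sum_mul]
  refine Finset.sum_le_sum fun i _ => ?_
  refine (mul_le_mul_right (iInf_le _ (⟨u i, hu i⟩ : {v : Space // ‖v‖ = 1})) _).trans ?_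
  rw [mul_comm]
  exact ENNReal.mul_div_le

end Vale.Agent.Results.P243.OneThirdImproved
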