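import Vale.Agent.P243.Half.Cover

namespace Vale.Agent.Results.P243.RelativeHalfDisproved

open MeasureTheory
open scoped ENNReal
open Vale.Agent.P243.Half

/-- A convex body covered by eight cylinders whose relative base areas add up to less than one
half. -/
theorem result :
    ∃ K : Set Space, IsCompact K ∧ Convex ℝ K ∧ (interior K).Nonempty ∧
      ∃ (u : Fin 8 → Space) (B : ∀ i, Set (perp (u i))),
        (∀ i, ‖u i‖ = 1) ∧ (∀ i, MeasurableSet (B i) ∧ area (u i) (B i) < ∞) ∧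
        K ⊆ cylinderUnion u B ∧
        relativeArea K u B ≤ ENNReal.ofReal (484 / 1000) ∧ relativeArea K u B < 1 / 2 := by
  have hclosed : IsClosed tetra := by
    simp only [tetra, Set.ofPred_and]
    refine (isClosed_le ?_ ?_).inter ((isClosed_le ?_ ?_).inter
      ((isClosed_le ?_ ?_).inter (isClosed_le ?_ ?_))) <;> fun_prop
  have hbdd : Bornology.IsBounded tetra := by
    refine (Metric.isBounded_iff_subset_closedBall 0).2 ⟨3, fun x hx => ?_⟩
    obtain ⟨h1, h2, h3, h4⟩ := hx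
    rw [mem_closedBall_zero_iff, EuclideanSpace.norm_eq, Fin.sum_univ_three,
      Real.sqrt_le_left (by norm_num)]
    simp only [Real.norm_eq_abs, sq_abs]
    nlinarith [mul_nonneg (show (0:ℝ) ≤ 1 - x 0 by linarith) (show (0:ℝ) ≤ 1 + x 0 by linarith),
      mul_nonneg (show (0:ℝ) ≤ 1 - x 1 by linarith) (show (0:ℝ) ≤ 1 + x 1 by linarith),
      mul_nonneg (show (0:ℝ) ≤ 1 - x 2 by linarith) (show (0:ℝ) ≤ 1 + x 2 by linarith)]
  have hcompact : IsCompact tetra := Metric.isCompact_of_isClosed_isBounded hclosed hbdd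
  have hconv : Convex ℝ tetra := by
    rintro x ⟨a1, a2, a3, a4⟩ y ⟨b1, b2, b3, b4⟩ s t hs ht hst
    simp only [tetra, Set.mem_ofPred_eq, PiLp.add_apply, PiLp.smul_apply, smul_eq_mul]
    refine ⟨?_, ?_, ?_, ?_⟩
    · nlinarith [mul_le_mul_of_nonneg_left a1 hs, mul_le_mul_of_nonneg_left b1 ht]
    · nlinarith [mul_le_mul_of_nonneg_left a2 hs, mul_le_mul_of_nonneg_left b2 ht]
    · nlinarith [mul_le_mul_of_nonneg_left a3 hs, mul_le_mul_of_nonneg_left b3 ht]
    · nlinarith [mul_le_mul_of_nonneg_left a4 hs, mul_le_mul_of_nonneg_left b4 ht]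
  have hint : (interior tetra).Nonempty := by
    refine ⟨0, mem_interior.2 ⟨{x : Space | x 0 + x 1 + x 2 < 1 ∧ x 0 - x 1 - x 2 < 1 ∧
      -x 0 + x 1 - x 2 < 1 ∧ -x 0 - x 1 + x 2 < 1},
      fun x h => ⟨h.1.le, h.2.1.le, h.2.2.1.le, h.2.2.2.le⟩, ?_, by simp⟩⟩
    simp only [Set.ofPred_and]
    refine (isOpen_lt ?_ ?_).inter ((isOpen_lt ?_ ?_).inter
      ((isOpen_lt ?_ ?_).inter (isOpen_lt ?_ ?_))) <;> fun_prop
  let u : Fin 8 → Space := fun i => unitVec (axisVec i)
  let B : ∀ i, Set (perp (u i)) := fun i => {y | coord i (y : Space) ∈ baseSet i}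
  have hu : ∀ i, ‖u i‖ = 1 := fun i => norm_unitVec (axisVec_ne_zero i)
  have h0 : ∀ i, coord i (u i) = 0 := fun i => by
    simp [u, unitVec, coord_axisVec i]
  have hker : ∀ i x, coord i x = 0 → ∃ c : ℝ, x = c • u i := fun i x hx => by
    obtain ⟨c, hc⟩ := coord_ker i x hx
    exact ⟨c * ‖axisVec i‖, by
      rw [hc]; simp only [u, unitVec]
      rw [smul_smul, mul_assoc, mul_inv_cancel₀ (norm_ne_zero_iff.2 (axisVec_ne_zero i)), mul_one]⟩
  have hr := fun i => ratio_le (coord i) (u i) (hu i) (h0 i) (hker i) (baseSet i) (shadowSet i)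
    tetra (base_volume i) (shadow_volume i) (shadow_subset i) (base_measurable i)
  have hsum : ∑ i, area (u i) (B i) / shadow (u i) tetra ≤ ENNReal.ofReal (484 / 1000) := by
    refine (Finset.sum_le_sum fun i _ => (hr i).2.2).trans ?_
    rw [← ENNReal.ofReal_sum_of_nonneg
      (fun i _ => by fin_cases i <;> norm_num [baseBound])]
    refine ENNReal.ofReal_le_ofReal ?_
    simp [Fin.sum_univ_eight, baseBound]
    norm_num
  refine ⟨tetra, hcompact, hconv, hint, u, B, hu, fun i => ⟨(hr i).1, (hr i).2.1⟩,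
    ?_, hsum, hsum.trans_lt ?_⟩
  · intro x hx
    obtain ⟨i, hi⟩ := covered x hx
    refine ⟨i, ?_⟩
    show coord i (proj (u i) x : Space) ∈ baseSet i
    rwa [coord_proj (coord i) (u i) x (h0 i)]
  · rw [ENNReal.ofReal_lt_iff_lt_toReal (by norm_num) (by simp)]
    norm_num

end Vale.Agent.Results.P243.RelativeHalfDisproved
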