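import Vale.Agent.P243.Sym.Shadow

namespace Vale.Agent.Results.P243.SymmetricHalfArea

open Real
open scoped ENNReal
open Vale.Agent.P243

/-- Bang's half-area inequality, with the better constant `π√2/8`, for all centrally symmetric
convex bodies and all finite cylinder coverings. -/
theorem result (K : Set R3) (hK : IsConvexBody K) (hsymm : ∃ c : R3, ∀ x ∈ K, (2 : ℝ) • c - x ∈ K)
    (C : Covering K) :
    ENNReal.ofReal (π * √2 / 8) * minShadow K ≤ C.area ∧ minShadow K ≤ 2 * C.area ∧
      1 / 2 < π * √2 / 8 := by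
  obtain ⟨c, hc⟩ := hsymm
  have h : ENNReal.ofReal (π * √2 / 8) * minShadow K ≤ C.area :=
    symmetric_area hK (c := c) (fun x hx => by
      have := hc x hx
      rwa [two_nsmul, ← two_smul ℝ c]) C
  have h2 : 1 / 2 < π * √2 / 8 := by
    have h1 : (1.4 : ℝ) < √2 := (Real.lt_sqrt (by norm_num)).2 (by norm_num)
    nlinarith [Real.pi_gt_three]
  refine ⟨h, ?_, h2⟩
  calc minShadow K = 2 * (ENNReal.ofReal (1 / 2) * minShadow K) := by
        rw [← mul_assoc, ← ENNReal.ofReal_ofNat 2, ← ENNReal.ofReal_mul (by norm_num)]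
        norm_num
    _ ≤ 2 * C.area :=
        mul_le_mul' le_rfl ((mul_le_mul' (ENNReal.ofReal_le_ofReal h2.le) le_rfl).trans h)

end Vale.Agent.Results.P243.SymmetricHalfArea
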